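import Vale.Agent.P193.W4.Tower.Arith
import Vale.Agent.P193.W4.Minimal.Closed

/-!
P193, W4, generic facts on towers: states along whole lines of tiles and below dead digits.
-/

namespace Vale.Agent.P193.W4

variable {k : ℕ} {em : ℕ → Option (List (Full k))}

namespace St

variable {a : Fin 3} {s s' s'' : St k}

/-- The state with every fold reset. -/
def off : St k := ⟨Flags.off, none, false⟩

lemma Beside.refl (a : Fin 3) (s : St k) : s.Beside a s :=
  ⟨fun _ _ _ => rfl, fun _ _ _ => rfl, fun _ _ _ => rfl, fun _ _ _ => rfl, fun _ => rfl,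
    fun _ _ => rfl, fun _ _ => rfl, fun _ => rfl, fun _ => rfl⟩

lemma Beside.symm (h : s.Beside a s') : s'.Beside a s :=
  ⟨fun i p q => (h.eq i p q).symm, fun i p q => (h.peq i p q).symm,
    fun i p q => (h.rel i p q).symm, fun i p q => (h.prel i p q).symm, fun p => (h.br p).symm,
    fun i p => (h.wasH i p).symm, fun i p => (h.wasP i p).symm, fun p => (h.word p).symm,
    fun p => (h.hit p).symm⟩

lemma Beside.trans (h : s.Beside a s') (g : s'.Beside a s'') : s.Beside a s'' :=
  ⟨fun i p q => (h.eq i p q).trans (g.eq i p q), fun i p q => (h.peq i p q).trans (g.peq i p q),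
    fun i p q => (h.rel i p q).trans (g.rel i p q), fun i p q => (h.prel i p q).trans (g.prel i p q),
    fun p => (h.br p).trans (g.br p), fun i p => (h.wasH i p).trans (g.wasH i p),
    fun i p => (h.wasP i p).trans (g.wasP i p), fun p => (h.word p).trans (g.word p),
    fun p => (h.hit p).trans (g.hit p)⟩

/-- Steps keep neighbours neighbours. -/
lemma Beside.step (h : s.Beside a s') (n : ℕ) {z z' : Fin 3 → Option (Mid k)}
    (hz : ∀ i, i ≠ a → z i = z' i) : (s.step em n z).Beside a (s'.step em n z') := by
  have z2 : a ≠ 2 → z 2 = z' 2 := fun p => hz 2 (Ne.symm p)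
  constructor
  · intro i p q
    simp only [St.step, Flags.step, hz i (Ne.symm p), hz _ (Ne.symm q), h.eq i p q]
  · intro i p q
    simp only [St.step, Flags.step, hz i (Ne.symm p), hz _ (Ne.symm q), h.peq i p q]
  · intro i p q
    simp only [St.step, Flags.step, hz i (Ne.symm p), hz _ (Ne.symm q), h.eq i p q, h.rel i p q,
      h.wasH _ q]
  · intro i p q
    simp only [St.step, Flags.step, hz i (Ne.symm p), hz _ (Ne.symm q), h.peq i p q, h.prel i p q,
      h.wasP _ q]
  · intro p
    subst p
    simp only [St.step, Flags.step, hz 0 (by decide), hz 1 (by decide), h.br rfl]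
  · intro i p
    simp only [St.step, Flags.step, hz i (Ne.symm p)]
  · intro i p
    simp only [St.step, Flags.step, hz i (Ne.symm p)]
  · intro p
    simp only [St.step, z2 p, h.word p]
  · intro p
    subst p
    simp only [St.step, matchStep, hz 0 (by decide), z2 (by decide), h.hit rfl,
      h.word (by decide : (1 : Fin 3) ≠ 2)]

/-- With all three digits dead the child is off. -/
lemma step_dead (s : St k) (n : ℕ) {z : Fin 3 → Option (Mid k)} (h : ∀ i, z i = none) :
    s.step em n z = off := by
  simp [St.step, off, Flags.step, Flags.off, wordStep, matchStep, h]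

/-- What a dead digit on axis `i` clears. -/
lemma step_dead_axis (s : St k) (n : ℕ) {z : Fin 3 → Option (Mid k)} {i : Fin 3} (h : z i = none) :
    (s.step em n z).flags.eq i = false ∧ (s.step em n z).flags.peq i = false ∧
      (s.step em n z).flags.wasH i = false ∧ (s.step em n z).flags.wasP i = false ∧
      (s.step em n z).flags.rel i = .apart ∧ (s.step em n z).flags.prel i = .apart := by
  simp [St.step, Flags.step, h]

lemma step_dead_br (s : St k) (n : ℕ) {z : Fin 3 → Option (Mid k)} (h : z 0 = none ∨ z 1 = none) :
    ∀ t, (s.step em n z).flags.br t = false := by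
  intro t
  rcases h with h | h
  · simp [St.step, Flags.step, h]
  · rcases hz : z 0 with _ | m
    · simp [St.step, Flags.step, hz]
    · cases m <;> simp [St.step, Flags.step, hz, h]

lemma step_dead_hit (s : St k) (n : ℕ) {z : Fin 3 → Option (Mid k)} (h : z 0 = none ∨ z 2 = none) :
    (s.step em n z).hit = false := by
  rcases h with h | h
  · rcases hz : z 2 with _ | m
    · simp [St.step, matchStep, hz]
    · cases m <;> simp [St.step, matchStep, hz, h]
  · simp [St.step, matchStep, h]

lemma step_dead_word (s : St k) (n : ℕ) {z : Fin 3 → Option (Mid k)} (h : z 2 = none) :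
    (s.step em n z).word = none := by
  simp [St.step, wordStep, h]

end St

namespace Tower

variable (T : Tower k em) {n : ℕ} {t t' : Fin 3 → ℤ}

/-- Neighbours along whole lines. -/
lemma beside_line (n : ℕ) (a : Fin 3) (h : ∀ i, i ≠ a → t i = t' i) :
    (T.st n t).Beside a (T.st n t') := by
  have key : ∀ d : ℕ, (T.st n t).Beside a (T.st n (Function.update t a (t a + d))) ∧
      (T.st n t).Beside a (T.st n (Function.update t a (t a - d))) := by
    intro d
    induction d with
    | zero => simp [St.Beside.refl]
    | succ d ih =>
      constructor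
      · refine ih.1.trans ?_
        have := T.beside n (Function.update t a (t a + d)) a
        simpa [add_assoc] using this
      · refine ih.2.trans ?_
        have := (T.beside n (Function.update t a (t a - (d + 1))) a).symm
        simpa [show t a - ((d : ℤ) + 1) + 1 = t a - d by ring] using this
  have ht : t' = Function.update t a (t' a) := by
    funext i
    rcases eq_or_ne i a with rfl | hi
    · rw [Function.update_self]
    · rw [Function.update_of_ne hi, h i hi]
  rw [ht]
  rcases le_total (t a) (t' a) with hle | hle
  · have := (key (t' a - t a).toNat).1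
    rwa [Int.toNat_of_nonneg (by omega), show t a + (t' a - t a) = t' a by ring] at this
  · have := (key (t a - t' a).toNat).2
    rwa [Int.toNat_of_nonneg (by omega), show t a - (t a - t' a) = t' a by ring] at this

lemma third_axis (i a : Fin 3) (h : a = i + 2) : a ≠ i ∧ a ≠ i + 1 := by
  subst h
  fin_cases i <;> decide

/-- The folds of kind `i` depend only on the coordinates `i` and `i + 1`. -/
lemma kind_congr (n : ℕ) {i : Fin 3} (h0 : t i = t' i) (h1 : t (i + 1) = t' (i + 1)) :
    (T.st n t).flags.eq i = (T.st n t').flags.eq i ∧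
      (T.st n t).flags.peq i = (T.st n t').flags.peq i ∧
      (T.st n t).flags.rel i = (T.st n t').flags.rel i ∧
      (T.st n t).flags.prel i = (T.st n t').flags.prel i := by
  have hb := T.beside_line n (i + 2) (t := t) (t' := t') fun j hj => by
    fin_cases i <;> fin_cases j <;> first | exact absurd rfl hj | exact h0 | exact h1
  obtain ⟨p, q⟩ := third_axis i (i + 2) rfl
  exact ⟨hb.eq i p q, hb.peq i p q, hb.rel i p q, hb.prel i p q⟩

/-- A marker bit depends on one coordinate. -/
lemma was_congr (n : ℕ) {i : Fin 3} (h : t i = t' i) :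
    (T.st n t).flags.wasH i = (T.st n t').flags.wasH i ∧
      (T.st n t).flags.wasP i = (T.st n t').flags.wasP i := by
  obtain ⟨p, -⟩ := third_axis i (i + 2) rfl
  have p' : i + 1 ≠ i := by fin_cases i <;> decide
  let u : Fin 3 → ℤ := Function.update t (i + 1) (t' (i + 1))
  have h1 := T.beside_line n (i + 1) (t := t) (t' := u) fun j hj => (Function.update_of_ne hj _ _).symm
  have h2 := T.beside_line n (i + 2) (t := u) (t' := t') fun j hj => by
    fin_cases i <;> fin_cases j <;>
      first | exact absurd rfl hj | simpa [u] using h | simp [u]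
  exact ⟨(h1.wasH i p').trans (h2.wasH i p), (h1.wasP i p').trans (h2.wasP i p)⟩

/-- The bridge depends on the coordinates `0` and `1`. -/
lemma br_congr (n : ℕ) (h0 : t 0 = t' 0) (h1 : t 1 = t' 1) :
    (T.st n t).flags.br = (T.st n t').flags.br :=
  (T.beside_line n 2 (t := t) (t' := t') fun j hj => by
    fin_cases j <;> first | exact absurd rfl hj | exact h0 | exact h1).br rfl

/-- The match bit depends on the coordinates `0` and `2`. -/
lemma hit_congr (n : ℕ) (h0 : t 0 = t' 0) (h2 : t 2 = t' 2) :
    (T.st n t).hit = (T.st n t').hit :=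
  (T.beside_line n 1 (t := t) (t' := t') fun j hj => by
    fin_cases j <;> first | exact absurd rfl hj | exact h0 | exact h2).hit rfl

/-- The word depends on the coordinate `2`. -/
lemma word_congr (n : ℕ) (h2 : t 2 = t' 2) : (T.st n t).word = (T.st n t').word := by
  let u : Fin 3 → ℤ := Function.update t 0 (t' 0)
  have h1 := T.beside_line n 0 (t := t) (t' := u) fun j hj => (Function.update_of_ne hj _ _).symm
  have h3 := T.beside_line n 1 (t := u) (t' := t') fun j hj => by
    fin_cases j <;> first | exact absurd rfl hj | simpa [u] using h2 | simp [u]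
  exact (h1.word (by decide)).trans (h3.word (by decide))

/-- A dead digit on axis `i` clears the folds of kind `i` of its tile. -/
lemma st_dead_axis {v : Fin 3 → ℤ} {i : Fin 3} (h : sym (T.digit v n i) = none) :
    (T.st n (T.tile v n)).flags.eq i = false ∧ (T.st n (T.tile v n)).flags.peq i = false ∧
      (T.st n (T.tile v n)).flags.wasH i = false ∧ (T.st n (T.tile v n)).flags.wasP i = false ∧
      (T.st n (T.tile v n)).flags.rel i = .apart ∧ (T.st n (T.tile v n)).flags.prel i = .apart := by
  rw [T.st_tile]
  exact St.step_dead_axis _ _ h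

lemma st_dead {v : Fin 3 → ℤ} (h : ∀ i, sym (T.digit v n i) = none) :
    T.st n (T.tile v n) = St.off := by
  rw [T.st_tile]
  exact St.step_dead _ _ h

/-- One step off a symbol tile on axis `i` the folds of kind `i` are clear. -/
lemma st_separated {v w : Fin 3 → ℤ} {i : Fin 3} {s : Mid k} (h : sym (T.digit v n i) = some s)
    (hd : |w i - v i| ≤ (base k : ℤ) ^ n) (hne : T.tile w n i ≠ T.tile v n i) :
    (T.st n (T.tile w n)).flags.eq i = false ∧ (T.st n (T.tile w n)).flags.peq i = false ∧
      (T.st n (T.tile w n)).flags.wasH i = false ∧ (T.st n (T.tile w n)).flags.wasP i = false ∧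
      (T.st n (T.tile w n)).flags.rel i = .apart ∧ (T.st n (T.tile w n)).flags.prel i = .apart :=
  T.st_dead_axis ((T.separated h hd).2 hne)

end Tower

end Vale.Agent.P193.W4
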