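import Vale.Agent.P193.W4.Interface

/-!
P193, W4, generic facts on towers: the arithmetic of tiles and digits on one counter axis, residues,
separators and bounded offsets.
-/

namespace Vale.Agent.P193.W4

/-! ### One axis -/

namespace Axis

variable {b : ℕ} (s : ℕ → Fin b)

/-- The tile of level `n` above `x`. -/
def up (x : ℤ) : ℕ → ℤ
  | 0 => x
  | n + 1 => (up x n + (s n).val) / (b : ℤ)

variable [NeZero b]

/-- The residue of an integer as a digit. -/
def red (x : ℤ) : Fin b :=
  ⟨(x % (b : ℤ)).toNat, by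
    have hb : (0 : ℤ) < b := by exact_mod_cast Nat.pos_of_neZero b
    have := Int.emod_lt_of_pos x hb
    have := Int.emod_nonneg x hb.ne'
    omega⟩

/-- The digit of level `n` above `x`. -/
def dig (x : ℤ) (n : ℕ) : Fin b := red (up s x n + (s n).val)

lemma b_pos : (0 : ℤ) < b := by exact_mod_cast Nat.pos_of_neZero b

lemma red_val (x : ℤ) : ((red (b := b) x).val : ℤ) = x % b :=
  Int.toNat_of_nonneg (Int.emod_nonneg x b_pos.ne')

lemma red_of_range {x q : ℤ} {d : Fin b} (h : x = q * b + d.val) : red x = d ∧ x / (b : ℤ) = q := by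
  have hd : (d.val : ℤ) < b := by exact_mod_cast d.isLt
  have h0 : (0 : ℤ) ≤ d.val := Int.natCast_nonneg _
  have hq := (Int.ediv_emod_unique b_pos).2 ⟨show (d.val : ℤ) + b * q = x by rw [h]; ring, h0, hd⟩
  refine ⟨Fin.ext ?_, hq.1⟩
  show (x % (b : ℤ)).toNat = d.val
  rw [hq.2, Int.toNat_natCast]

lemma step_eq (x : ℤ) (n : ℕ) :
    up s x n + (s n).val = up s x (n + 1) * b + (dig s x n).val := by
  rw [dig, red_val]
  show _ = (up s x n + (s n).val) / (b : ℤ) * b + _
  rw [Int.ediv_mul_add_emod]

lemma dig_of_eq {x q : ℤ} {n : ℕ} {d : Fin b} (h : up s x n + (s n).val = q * b + d.val) :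
    dig s x n = d ∧ up s x (n + 1) = q :=
  red_of_range h

omit [NeZero b] in
/-- Equal tiles have equal tiles and digits above them. -/
lemma up_above {x y : ℤ} {m : ℕ} (h : up s x m = up s y m) :
    ∀ {n}, m ≤ n → up s x n = up s y n := fun {n} hn => by
  induction hn with
  | refl => exact h
  | step _ ih =>
    show (up s x _ + _) / (b : ℤ) = (up s y _ + _) / (b : ℤ)
    rw [ih]

lemma dig_above {x y : ℤ} {m n : ℕ} (h : up s x m = up s y m) (hn : m ≤ n) :
    dig s x n = dig s y n := by
  rw [dig, dig, up_above s h hn]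

/-- Within one tile the lower digits give the position. -/
lemma eq_of_dig {x y : ℤ} : ∀ {n}, up s x n = up s y n → (∀ m, m < n → dig s x m = dig s y m) →
    x = y
  | 0, h, _ => h
  | n + 1, h, hd => by
    refine eq_of_dig (n := n) ?_ fun m hm => hd m (hm.trans (Nat.lt_succ_self n))
    have e1 := step_eq s x n
    have e2 := step_eq s y n
    rw [h, hd n (Nat.lt_succ_self n)] at e1
    omega

/-- Every string of low digits occurs in every tile. -/
lemma exists_low : ∀ (n : ℕ) (t : ℤ) (d : ℕ → Fin b),
    ∃ x, up s x n = t ∧ ∀ m, m < n → dig s x m = d m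
  | 0, t, _ => ⟨t, rfl, fun m hm => absurd hm (Nat.not_lt_zero m)⟩
  | n + 1, t, d => by
    obtain ⟨x, hx, hd⟩ := exists_low n (t * b + (d n).val - (s n).val) d
    have h := dig_of_eq s (x := x) (n := n) (q := t) (d := d n) (by rw [hx]; ring)
    refine ⟨x, h.2, fun m hm => ?_⟩
    rcases Nat.lt_succ_iff_lt_or_eq.1 hm with hm | rfl
    exacts [hd m hm, h.1]

/-- The cells of one tile lie within its width. -/
lemma dist_lt : ∀ {n} {x y : ℤ}, up s x n = up s y n → |x - y| < (b : ℤ) ^ n
  | 0, x, y, h => by simp [show x = y from h]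
  | n + 1, x, y, h => by
    obtain ⟨x', hx', hd⟩ := exists_low s n (up s y n) fun m => dig s x m
    have h1 := dist_lt (n := n) (x := x') (y := y) hx'
    have e1 := step_eq s x n
    have e2 := step_eq s y n
    have hlin : ∀ m, m ≤ n → x - x' = (up s x m - up s x' m) * (b : ℤ) ^ m := by
      intro m hm
      induction m with
      | zero => simp [up]
      | succ m ih =>
        have a1 := step_eq s x m
        have a2 := step_eq s x' m
        rw [hd m hm] at a2
        rw [ih (Nat.le_of_succ_le hm), pow_succ]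
        have : up s x m - up s x' m = (up s x (m + 1) - up s x' (m + 1)) * b := by linarith
        rw [this]
        ring
    have hk := hlin n le_rfl
    rw [hx'] at hk
    have hdx : ((dig s x n).val : ℤ) < b := by exact_mod_cast (dig s x n).isLt
    have hdy : ((dig s y n).val : ℤ) < b := by exact_mod_cast (dig s y n).isLt
    have hk' : |up s x n - up s y n| ≤ (b : ℤ) - 1 := by
      rw [h] at e1
      rw [abs_le]
      constructor <;> omega
    have hp : (0 : ℤ) ≤ (b : ℤ) ^ n := pow_nonneg b_pos.le n
    calc |x - y| ≤ |x - x'| + |x' - y| := abs_sub_le _ _ _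
      _ = |up s x n - up s y n| * (b : ℤ) ^ n + |x' - y| := by
        rw [hk, abs_mul, abs_of_nonneg hp]
      _ < ((b : ℤ) - 1) * (b : ℤ) ^ n + (b : ℤ) ^ n :=
        add_lt_add_of_le_of_lt (mul_le_mul_of_nonneg_right hk' hp) h1
      _ = (b : ℤ) ^ (n + 1) := by ring

/-- A short offset moves a tile by at most one. -/
lemma up_near : ∀ {n} {x y : ℤ}, |y - x| ≤ (b : ℤ) ^ n →
    up s y n - up s x n ∈ Set.Icc (-1 : ℤ) 1
  | 0, x, y, h => by
    rw [pow_zero] at h
    exact ⟨(abs_le.1 h).1, (abs_le.1 h).2⟩
  | n + 1, x, y, h => by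
    -- the position in units of the tiles of level `n`
    have hp : (0 : ℤ) < (b : ℤ) ^ n := pow_pos b_pos n
    obtain ⟨y', hy', hd⟩ := exists_low s n (up s x n) fun m => dig s y m
    have hy := dist_lt s (n := n) hy'
    have hlin : ∀ m, m ≤ n → y - y' = (up s y m - up s y' m) * (b : ℤ) ^ m := by
      intro m hm
      induction m with
      | zero => simp [up]
      | succ m ih =>
        have a1 := step_eq s y m
        have a2 := step_eq s y' m
        rw [hd m hm] at a2
        rw [ih (Nat.le_of_succ_le hm), pow_succ]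
        have : up s y m - up s y' m = (up s y (m + 1) - up s y' (m + 1)) * b := by linarith
        rw [this]
        ring
    have hk := hlin n le_rfl
    rw [hy'] at hk
    have hbound : |up s y n - up s x n| * (b : ℤ) ^ n < ((b : ℤ) + 1) * (b : ℤ) ^ n := by
      calc |up s y n - up s x n| * (b : ℤ) ^ n = |y - y'| := by
            rw [hk, abs_mul, abs_of_pos hp]
        _ ≤ |y - x| + |y' - x| := by
            have := abs_sub_le y x y'
            rwa [abs_sub_comm x y'] at this
        _ < (b : ℤ) ^ (n + 1) + (b : ℤ) ^ n := add_lt_add_of_le_of_lt h hy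
        _ = ((b : ℤ) + 1) * (b : ℤ) ^ n := by ring
    have hk' : |up s y n - up s x n| ≤ (b : ℤ) := Int.lt_add_one_iff.1
      (lt_of_mul_lt_mul_right hbound hp.le)
    obtain ⟨k1, k2⟩ := abs_le.1 hk'
    have e1 := step_eq s x n
    have e2 := step_eq s y n
    have hdx : ((dig s x n).val : ℤ) < b := by exact_mod_cast (dig s x n).isLt
    have hdy : ((dig s y n).val : ℤ) < b := by exact_mod_cast (dig s y n).isLt
    have := b_pos (b := b)
    constructor <;> nlinarith

/-- A digit that is no end keeps short offsets in the tile above it. -/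
lemma up_succ_of_middle {x y : ℤ} {n : ℕ} (h0 : 0 < (dig s x n).val)
    (h1 : (dig s x n).val + 1 < b) (h : |y - x| ≤ (b : ℤ) ^ n) :
    up s y (n + 1) = up s x (n + 1) ∧
      ((dig s y n).val : ℤ) = (dig s x n).val + (up s y n - up s x n) := by
  obtain ⟨k1, k2⟩ := up_near s h
  have e1 := step_eq s x n
  have h0' : (1 : ℤ) ≤ (dig s x n).val := by exact_mod_cast h0
  have h1' : ((dig s x n).val : ℤ) + 2 ≤ b := by exact_mod_cast h1
  let d : Fin b := ⟨(((dig s x n).val : ℤ) + (up s y n - up s x n)).toNat, by omega⟩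
  have hd : (d.val : ℤ) = (dig s x n).val + (up s y n - up s x n) :=
    Int.toNat_of_nonneg (by omega)
  have e := dig_of_eq s (x := y) (n := n) (q := up s x (n + 1)) (d := d) (by rw [hd]; omega)
  exact ⟨e.2, by rw [e.1]; exact hd⟩

end Axis

/-! ### Towers -/

variable {k : ℕ} {em : ℕ → Option (List (Full k))}

instance : NeZero (base k) := ⟨by unfold base; omega⟩

lemma sym_middle {i : Fin (base k)} {m : Mid k} (h : sym i = some m) :
    0 < i.val ∧ i.val + 1 < base k := by
  rw [sym_eq_some] at h
  subst h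
  have := (Fintype.equivFin (Mid k) m).isLt
  simp only [pos, base]
  omega

/-- A fixed dead middle digit. -/
def idle : Fin (base k) := ⟨1, by unfold base; omega⟩

@[simp] lemma sym_idle : sym (idle : Fin (base k)) = none := by
  cases h : sym (idle : Fin (base k)) with
  | none => rfl
  | some m =>
    rw [sym_eq_some] at h
    have := congrArg Fin.val h
    simp [pos, idle] at this

namespace Tower

variable (T : Tower k em)

lemma tile_eq_up (v : Fin 3 → ℤ) (i : Fin 3) :
    ∀ n, T.tile v n i = Axis.up (fun m => T.shift m i) (v i) n := fun n => by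
  induction n with
  | zero => rfl
  | succ n ih =>
    show (T.tile v n i + _) / _ = _
    rw [ih]
    rfl

lemma digit_eq_dig (v : Fin 3 → ℤ) (n : ℕ) (i : Fin 3) :
    T.digit v n i = Axis.dig (fun m => T.shift m i) (v i) n := by
  refine Fin.ext ?_
  show ((T.tile v n i + _) % _).toNat = _
  rw [T.tile_eq_up v i n]
  rfl

variable {v w : Fin 3 → ℤ} {i : Fin 3} {m n : ℕ}

/-- Tiles and digits on an axis depend on this coordinate alone. -/
lemma tile_congr (h : v i = w i) (n : ℕ) : T.tile v n i = T.tile w n i := by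
  rw [T.tile_eq_up, T.tile_eq_up, h]

lemma digit_congr (h : v i = w i) (n : ℕ) : T.digit v n i = T.digit w n i := by
  rw [T.digit_eq_dig, T.digit_eq_dig, h]

lemma tile_update (v : Fin 3 → ℤ) (a : Fin 3) (x : ℤ) (n : ℕ) :
    T.tile (Function.update v a x) n =
      Function.update (T.tile v n) a (T.tile (Function.update v a x) n a) := by
  funext j
  by_cases h : j = a
  · subst h; rw [Function.update_self]
  · rw [Function.update_of_ne h]
    exact T.tile_congr (Function.update_of_ne h _ _) n

lemma tile_above (h : T.tile v m i = T.tile w m i) (hn : m ≤ n) :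
    T.tile v n i = T.tile w n i := by
  rw [T.tile_eq_up, T.tile_eq_up] at *
  exact Axis.up_above _ h hn

lemma digit_above (h : T.tile v m i = T.tile w m i) (hn : m ≤ n) :
    T.digit v n i = T.digit w n i := by
  rw [T.tile_eq_up, T.tile_eq_up] at h
  rw [T.digit_eq_dig, T.digit_eq_dig]
  exact Axis.dig_above _ h hn

lemma eq_of_digits (h : T.tile v n i = T.tile w n i)
    (hd : ∀ m, m < n → T.digit v m i = T.digit w m i) : v i = w i := by
  rw [T.tile_eq_up, T.tile_eq_up] at h
  refine Axis.eq_of_dig _ h fun m hm => ?_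
  have := hd m hm
  rwa [T.digit_eq_dig, T.digit_eq_dig] at this

lemma dist_lt (h : T.tile v n i = T.tile w n i) : |v i - w i| < (base k : ℤ) ^ n := by
  rw [T.tile_eq_up, T.tile_eq_up] at h
  exact Axis.dist_lt _ h

/-- Every string of low digits occurs, once, in every tile. -/
lemma exists_cell (n : ℕ) (t : Fin 3 → ℤ) (d : ℕ → Fin 3 → Fin (base k)) :
    ∃ v, T.tile v n = t ∧ ∀ m, m < n → ∀ i, T.digit v m i = d m i := by
  choose x hx hd using fun i => Axis.exists_low (fun m => T.shift m i) n (t i) fun m => d m i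
  exact ⟨x, funext fun i => by rw [T.tile_eq_up, hx], fun m hm i => by
    rw [T.digit_eq_dig, hd i m hm]⟩

/-- Every string of low digits occurs near every cell. -/
lemma exists_cell_near (n : ℕ) (v : Fin 3 → ℤ) (d : ℕ → Fin 3 → Fin (base k)) :
    ∃ w, T.tile w n = T.tile v n ∧ (∀ i, |w i - v i| < (base k : ℤ) ^ n) ∧
      ∀ m, m < n → ∀ i, T.digit w m i = d m i := by
  obtain ⟨w, hw, hd⟩ := T.exists_cell n (T.tile v n) d
  exact ⟨w, hw, fun i => T.dist_lt (congrFun hw i), hd⟩

/-- Short offsets move a tile by at most one. -/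
lemma tile_near (h : |w i - v i| ≤ (base k : ℤ) ^ n) :
    T.tile w n i - T.tile v n i ∈ Set.Icc (-1 : ℤ) 1 := by
  rw [T.tile_eq_up, T.tile_eq_up]
  exact Axis.up_near _ h

/-- A middle digit keeps short offsets in the tile above it. -/
lemma tile_succ_of_middle (h0 : 0 < (T.digit v n i).val) (h1 : (T.digit v n i).val + 1 < base k)
    (h : |w i - v i| ≤ (base k : ℤ) ^ n) :
    T.tile w (n + 1) i = T.tile v (n + 1) i ∧
      ((T.digit w n i).val : ℤ) = (T.digit v n i).val + (T.tile w n i - T.tile v n i) := by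
  rw [T.digit_eq_dig] at h0 h1
  simp only [T.tile_eq_up, T.digit_eq_dig]
  exact Axis.up_succ_of_middle _ h0 h1 h

lemma MiddleBelow.tile_eq (h : T.MiddleBelow v n i) (hm : m < n)
    (hd : |w i - v i| ≤ (base k : ℤ) ^ m) : T.tile w n i = T.tile v n i :=
  T.tile_above (T.tile_succ_of_middle (h m hm).1 (h m hm).2 hd).1 hm

/-- The tile one step off a symbol tile has the same parent and is dead. -/
lemma separated {s : Mid k} (h : sym (T.digit v n i) = some s)
    (hd : |w i - v i| ≤ (base k : ℤ) ^ n) :
    T.tile w (n + 1) i = T.tile v (n + 1) i ∧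
      (T.tile w n i ≠ T.tile v n i → sym (T.digit w n i) = none) := by
  obtain ⟨h0, h1⟩ := sym_middle h
  obtain ⟨e1, e2⟩ := T.tile_succ_of_middle h0 h1 hd
  refine ⟨e1, fun hne => sym_separated h ?_⟩
  obtain ⟨k1, k2⟩ := T.tile_near (n := n) hd
  omega

/-- Two symbol tiles one step apart are equal. -/
lemma symbols_eq {s s' : Mid k} (h : sym (T.digit v n i) = some s)
    (h' : sym (T.digit w n i) = some s') (hd : |w i - v i| ≤ (base k : ℤ) ^ n) :
    T.tile w n i = T.tile v n i := by
  by_contra hne
  rw [(T.separated h hd).2 hne] at h'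
  cases h'

end Tower

end Vale.Agent.P193.W4
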