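import Vale.Agent.P193.W4.Tower.Line

/-!
P193, W4, the builder: a tower from the placements of the levels, if every tile has a tile above it
with three dead digits; towers with prescribed digits at one cell.
-/

namespace Vale.Agent.P193.W4

variable {k : ℕ} {em : ℕ → Option (List (Full k))}

namespace Build

variable (sh : ℕ → Fin 3 → Fin (base k))

/-- The parent of a tile of level `n`. -/
def par (n : ℕ) (t : Fin 3 → ℤ) : Fin 3 → ℤ := fun i => (t i + (sh n i).val) / (base k : ℤ)

/-- The symbols of the digits of a tile of level `n`. -/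
noncomputable def syms (n : ℕ) (t : Fin 3 → ℤ) : Fin 3 → Option (Mid k) :=
  fun i => sym (Axis.red (t i + (sh n i).val))

/-- Three dead digits `j` levels above a tile. -/
def DeadAbove : ℕ → ℕ → (Fin 3 → ℤ) → Prop
  | 0, n, t => ∀ i, syms sh n t i = none
  | j + 1, n, t => DeadAbove j (n + 1) (par sh n t)

/-- Every tile has three dead digits above it. -/
def Settles : Prop := ∀ n t, ∃ j, DeadAbove sh j n t

variable (em)

/-- The fold over `J` levels, starting off. -/
noncomputable def fold : ℕ → ℕ → (Fin 3 → ℤ) → St k
  | 0, _, _ => St.off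
  | J + 1, n, t => (fold J (n + 1) (par sh n t)).step em n (syms sh n t)

variable {em sh}

lemma fold_stable : ∀ {j n : ℕ} {t : Fin 3 → ℤ}, DeadAbove sh j n t →
    ∀ {J}, j < J → fold em sh J n t = fold em sh (j + 1) n t
  | 0, n, t, h, J + 1, _ => by
    show St.step em n _ _ = St.step em n _ _
    rw [St.step_dead _ _ h, St.step_dead _ _ h]
  | j + 1, n, t, h, J + 1, hJ => by
    show St.step em n _ _ = St.step em n _ _
    rw [fold_stable (n := n + 1) (t := par sh n t) h (show j < J by omega)]

variable (em) (hs : Settles sh)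

open Classical in
/-- The state of a tile. -/
noncomputable def state (n : ℕ) (t : Fin 3 → ℤ) : St k := fold em sh (Nat.find (hs n t) + 1) n t

open Classical in
lemma state_eq (n : ℕ) (t : Fin 3 → ℤ) :
    ∃ j, ∀ J, j < J → state em hs n t = fold em sh J n t :=
  ⟨Nat.find (hs n t), fun _ hJ => (fold_stable (Nat.find_spec (hs n t)) hJ).symm⟩

lemma state_step (n : ℕ) (t : Fin 3 → ℤ) :
    state em hs n t = (state em hs (n + 1) (par sh n t)).step em n (syms sh n t) := by
  obtain ⟨j, hj⟩ := state_eq em hs n t
  obtain ⟨j', hj'⟩ := state_eq em hs (n + 1) (par sh n t)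
  rw [hj (max j j' + 2) (by omega), hj' (max j j' + 1) (by omega)]
  rfl

lemma reach_off : (St.off (k := k)).flags.Reach := Flags.Reach.off

lemma fold_reach : ∀ (J n : ℕ) (t : Fin 3 → ℤ), (fold em sh J n t).flags.Reach
  | 0, _, _ => reach_off
  | J + 1, n, t => Flags.Reach.step _ (fold_reach J (n + 1) (par sh n t))

variable {em}

lemma fold_wordOK (hem : ∀ n w, em n = some w → w ≠ []) : ∀ (J n : ℕ) (t : Fin 3 → ℤ) (w : Word k),
    (fold em sh J n t).word = some w → WordOK n w
  | 0, _, _, w, h => by simp [fold, St.off] at h
  | J + 1, n, t, w, h => by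
    have h' : wordStep em n (fold em sh J (n + 1) (par sh n t)).word (syms sh n t 2) = some w := h
    rcases hz : syms sh n t 2 with _ | m
    · rw [hz] at h'; simp [wordStep] at h'
    cases m with
    | reset =>
      rw [hz] at h'
      obtain ⟨u, hu, rfl⟩ := Option.map_eq_some_iff.1 (show (em n).map (padWord n) = some w from h')
      have hne := hem n u hu
      refine ⟨by simp [padWord], fun i hi hw => ?_⟩
      have key : ∀ j (hj : j < (padWord n u).length), (padWord n u)[j] = none ↔ u.length ≤ j := by
        intro j hj
        simp only [padWord, List.getElem_take]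
        by_cases hju : j < u.length
        · simp [List.getElem_append_left (show j < (u.map some).length by simpa using hju), hju]
        · rw [List.getElem_append_right (by simpa using Nat.not_lt.1 hju)]
          simpa using Nat.not_lt.1 hju
      have hi' := (key i hi).1 hw
      exact ⟨(List.length_pos_of_ne_nil hne).trans_le hi', fun j hj hij => (key j hj).2 (hi'.trans hij)⟩
    | pass =>
      rw [hz] at h'
      obtain ⟨u, hu, rfl⟩ := Option.map_eq_some_iff.1
        (show Option.map (List.take n) _ = some w from h')
      obtain ⟨hl, hstar⟩ := fold_wordOK hem J (n + 1) (par sh n t) u hu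
      refine ⟨by simp [hl], fun i hi hw => ?_⟩
      rw [List.getElem_take] at hw
      obtain ⟨h0, hup⟩ := hstar i _ hw
      exact ⟨h0, fun j hj hij => by rw [List.getElem_take]; exact hup j _ hij⟩
    | _ => rw [hz] at h'; simp [wordStep] at h'

lemma par_update {n : ℕ} {t : Fin 3 → ℤ} {a : Fin 3} (i : Fin 3) (h : i ≠ a) (x : ℤ) :
    par sh n (Function.update t a x) i = par sh n t i ∧
      syms sh n (Function.update t a x) i = syms sh n t i := by
  simp [par, syms, Function.update_of_ne h]

lemma fold_beside : ∀ (J n : ℕ) (t t' : Fin 3 → ℤ) (a : Fin 3), (∀ i, i ≠ a → t i = t' i) →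
    (fold em sh J n t).Beside a (fold em sh J n t')
  | 0, _, _, _, a, _ => St.Beside.refl a _
  | J + 1, n, t, t', a, h =>
    (fold_beside J (n + 1) _ _ a fun i hi => by simp [par, h i hi]).step n
      fun i hi => by simp [syms, h i hi]

/-- The tower with the given placements. -/
noncomputable def tower (hem : ∀ n w, em n = some w → w ≠ []) : Tower k em where
  shift := sh
  st := state em hs
  step n t := state_step em hs n t
  reach n t := fold_reach em _ n t
  wordOK n t w h := fold_wordOK hem _ n t w h
  beside n t a := by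
    obtain ⟨j, hj⟩ := state_eq em hs n t
    obtain ⟨j', hj'⟩ := state_eq em hs n (Function.update t a (t a + 1))
    rw [hj (j + j' + 1) (by omega), hj' (j + j' + 1) (by omega)]
    exact fold_beside _ n _ _ a fun i hi => (Function.update_of_ne hi _ _).symm

/-! ### Placements that end at a fixed dead middle digit -/

lemma natAbs_par_lt {t : ℤ} (ht : t ≠ 0) {s : Fin (base k)} {d : ℤ} (h1 : 1 ≤ d)
    (h2 : d + 2 ≤ base k) (hd : (t + s.val) % (base k : ℤ) = d) :
    ((t + s.val) / (base k : ℤ)).natAbs < t.natAbs := by
  have hb : (0 : ℤ) < base k := Axis.b_pos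
  have hs : (s.val : ℤ) < base k := by exact_mod_cast s.isLt
  have hs0 : (0 : ℤ) ≤ s.val := Int.natCast_nonneg _
  have e := Int.ediv_mul_add_emod (t + s.val) (base k : ℤ)
  rw [hd] at e
  set q := (t + s.val) / (base k : ℤ)
  rcases lt_trichotomy t 0 with h | h | h
  · have hq0 : q ≤ 0 := by by_contra hc; nlinarith
    have : t < q := by nlinarith
    omega
  · exact absurd h ht
  · have hq0 : 0 ≤ q := by by_contra hc; nlinarith
    have : q < t := by nlinarith
    omega

lemma dead_of_const {n : ℕ} (hn : ∀ m, n ≤ m → sh m = fun _ => idle) :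
    ∀ (t : Fin 3 → ℤ) (m : ℕ), n ≤ m → ∃ j, DeadAbove sh j m t := by
  suffices h : ∀ (r : ℕ) (t : Fin 3 → ℤ), (∑ i, (t i).natAbs) ≤ r → ∀ m, n ≤ m →
      ∃ j, DeadAbove sh j m t from fun t m hm => h _ t le_rfl m hm
  intro r
  induction r using Nat.strong_induction_on with
  | _ r ih =>
    intro t hr m hm
    by_cases h0 : ∀ i, t i = 0
    · refine ⟨0, fun i => ?_⟩
      have : Axis.red (b := base k) (((idle : Fin (base k)).val : ℤ)) = idle :=
        (Axis.red_of_range (q := 0) (d := idle) (by simp)).1
      simp [syms, hn m hm, h0 i, this]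
    · push Not at h0
      obtain ⟨i₀, hi₀⟩ := h0
      have hb : (3 : ℤ) ≤ base k := by exact_mod_cast (show 3 ≤ base k by unfold base; omega)
      have hle : ∀ i, (par sh m t i).natAbs ≤ (t i).natAbs ∧
          (t i ≠ 0 → (par sh m t i).natAbs < (t i).natAbs) := by
        intro i
        have hq : par sh m t i = (t i + 1) / (base k : ℤ) := by simp [par, hn m hm, idle]
        have e := Int.ediv_mul_add_emod (t i + 1) (base k : ℤ)
        have h1 := Int.emod_nonneg (t i + 1) (b := (base k : ℤ)) (by omega)
        have h2 := Int.emod_lt_of_pos (t i + 1) (b := (base k : ℤ)) (by omega)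
        rw [hq]
        set q := (t i + 1) / (base k : ℤ)
        rcases lt_trichotomy (t i) 0 with h | h | h
        · have hq0 : q ≤ 0 := by by_contra hc; nlinarith
          have : t i < q := by nlinarith
          omega
        · have : q = 0 := by
            rcases lt_trichotomy q 0 with hc | hc | hc
            · nlinarith
            · exact hc
            · nlinarith
          omega
        · have hq0 : 0 ≤ q := by by_contra hc; nlinarith
          have : q < t i := by nlinarith
          omega
      have hlt : (∑ i, (par sh m t i).natAbs) < ∑ i, (t i).natAbs :=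
        Finset.sum_lt_sum (fun i _ => (hle i).1) ⟨i₀, Finset.mem_univ _, (hle i₀).2 hi₀⟩
      obtain ⟨j, hj⟩ := ih (∑ i, (par sh m t i).natAbs) (by omega) (par sh m t) le_rfl (m + 1)
        (hm.trans (Nat.le_succ m))
      exact ⟨j + 1, hj⟩

/-- Placements that are eventually the fixed dead middle digit settle. -/
lemma settles_of_eventually {n : ℕ} (hn : ∀ m, n ≤ m → sh m = fun _ => idle) : Settles sh := by
  suffices h : ∀ r m t, n ≤ m + r → ∃ j, DeadAbove sh j m t from fun m t => h n m t (by omega)
  intro r
  induction r with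
  | zero => exact fun m t hm => dead_of_const hn t m hm
  | succ r ih =>
    intro m t hm
    obtain ⟨j, hj⟩ := ih (m + 1) (par sh m t) (by omega)
    exact ⟨j + 1, hj⟩

end Build

/-- Every cell is dead on every axis arbitrarily high. -/
lemma Tower.dead_high {T : Tower k em} {n : ℕ} (hn : ∀ m, n ≤ m → T.shift m = fun _ => idle)
    (v : Fin 3 → ℤ) (m₀ : ℕ) : ∃ m, m₀ ≤ m ∧ ∀ i, sym (T.digit v m i) = none := by
  have key : ∀ j m, Build.DeadAbove T.shift j m (T.tile v m) →
      ∀ i, sym (T.digit v (m + j) i) = none := by
    intro j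
    induction j with
    | zero => exact fun m h i => h i
    | succ j ih =>
      intro m h i
      have := ih (m + 1) h i
      rwa [show m + 1 + j = m + (j + 1) by omega] at this
  obtain ⟨j, hj⟩ := Build.dead_of_const hn (T.tile v (max n m₀)) _ (le_max_left n m₀)
  exact ⟨max n m₀ + j, by omega, key j _ hj⟩

/-- Every cell is closed if the placements end at the fixed dead middle digit. -/
lemma Tower.closed_of_eventually {T : Tower k em} {n : ℕ}
    (hn : ∀ m, n ≤ m → T.shift m = fun _ => idle) (v : Fin 3 → ℤ) : T.Closed v := fun i => by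
  obtain ⟨m, -, hm⟩ := Tower.dead_high hn v 0
  exact ⟨m, hm i⟩

/-- A tower whose placements end at the fixed dead middle digit is reset. -/
lemma Tower.reset_of_eventually {T : Tower k em} {n : ℕ}
    (hn : ∀ m, n ≤ m → T.shift m = fun _ => idle) : T.Reset := fun v i m₀ => by
  obtain ⟨m, hm, h⟩ := Tower.dead_high hn v m₀
  exact ⟨m, hm, h i⟩

namespace Build

variable (v : Fin 3 → ℤ) (d : ℕ → Fin 3 → Fin (base k))

/-- The tiles above `v` when its digits are `d`. -/
def pin : ℕ → Fin 3 → ℤ
  | 0 => v
  | n + 1 => fun i => (pin n i + (Axis.red ((d n i).val - pin n i) : Fin (base k)).val) / (base k : ℤ)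

/-- The placements giving `v` the digits `d`. -/
def pinShift (n : ℕ) (i : Fin 3) : Fin (base k) := Axis.red ((d n i).val - pin v d n i)

lemma pin_mod (n : ℕ) (i : Fin 3) :
    (pin v d n i + (pinShift v d n i).val) % (base k : ℤ) = (d n i).val := by
  rw [pinShift, Axis.red_val, Int.add_emod_emod, add_sub_cancel,
    Int.emod_eq_of_lt (Int.natCast_nonneg _) (by exact_mod_cast (d n i).isLt)]

lemma pin_eventually {M : ℕ} (hd : ∀ m, M ≤ m → d m = fun _ => idle) :
    ∃ n, M ≤ n ∧ ∀ m, n ≤ m → pinShift v d m = fun _ => idle := by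
  have hb : (3 : ℤ) ≤ base k := by exact_mod_cast (show 3 ≤ base k by unfold base; omega)
  have hstep : ∀ m, M ≤ m → ∀ i, pin v d m i ≠ 0 →
      (pin v d (m + 1) i).natAbs < (pin v d m i).natAbs := fun m hm i hne => by
    refine natAbs_par_lt hne (d := 1) le_rfl (by omega) ?_
    have := pin_mod v d m i
    rw [hd m hm] at this
    simpa [idle, pinShift] using this
  have hzero : ∀ m, M ≤ m → ∀ i, pin v d m i = 0 → pinShift v d m i = idle ∧ pin v d (m + 1) i = 0 := by
    intro m hm i h0
    have e : pinShift v d m i = idle := by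
      have := (Axis.red_of_range (b := base k) (x := ((d m i).val : ℤ) - pin v d m i) (q := 0)
        (d := idle) (by rw [hd m hm, h0]; simp)).1
      exact this
    refine ⟨e, ?_⟩
    show (pin v d m i + ((pinShift v d m i).val : ℤ)) / (base k : ℤ) = 0
    rw [e, h0]
    exact Int.ediv_eq_zero_of_lt (by simp) (by simp [idle]; omega)
  have hdec : ∀ r i, (pin v d (M + r) i).natAbs ≤ (pin v d M i).natAbs - r := by
    intro r i
    induction r with
    | zero => simp
    | succ r ih =>
      rcases eq_or_ne (pin v d (M + r) i) 0 with h | h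
      · rw [← add_assoc, (hzero _ (by omega) i h).2]
        simp
      · have := hstep (M + r) (by omega) i h
        rw [← add_assoc]
        omega
  refine ⟨M + ∑ i, (pin v d M i).natAbs, by omega, fun m hm => funext fun i => ?_⟩
  refine (hzero m (by omega) i ?_).1
  have h1 := hdec (m - M) i
  rw [show M + (m - M) = m by omega] at h1
  have h2 : (pin v d M i).natAbs ≤ ∑ j, (pin v d M j).natAbs :=
    Finset.single_le_sum (f := fun j => (pin v d M j).natAbs) (fun j _ => Nat.zero_le _)
      (Finset.mem_univ i)
  omega

end Build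

/-- A tower with prescribed digits at one cell, eventually the fixed dead middle digit; every cell
is dead arbitrarily high. -/
theorem exists_tower_digits (hem : ∀ n w, em n = some w → w ≠ []) (v : Fin 3 → ℤ)
    (d : ℕ → Fin 3 → Fin (base k)) {M : ℕ} (hd : ∀ m, M ≤ m → d m = fun _ => idle) :
    ∃ T : Tower k em, (∀ m, T.digit v m = d m) ∧ (∀ w, T.Closed w) ∧ T.Reset ∧
      ∀ m, M ≤ m → T.st m (T.tile v m) = St.off := by
  obtain ⟨n, hMn, hn⟩ := Build.pin_eventually v d hd
  let T : Tower k em := Build.tower (Build.settles_of_eventually hn) hem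
  have hshift : ∀ m, T.shift m = Build.pinShift v d m := fun m => rfl
  have htile : ∀ m, T.tile v m = Build.pin v d m := fun m => by
    induction m with
    | zero => rfl
    | succ m ih =>
      funext i
      show (T.tile v m i + (T.shift m i).val) / (base k : ℤ) = _
      rw [ih]
      rfl
  have hdig : ∀ m, T.digit v m = d m := fun m => funext fun i => Fin.ext <| Int.ofNat_inj.1 <| by
    show ((((T.tile v m i + (T.shift m i).val) % (base k : ℤ))).toNat : ℤ) = _
    rw [htile, hshift, Build.pin_mod]
    simp
  refine ⟨T, hdig, fun w => Tower.closed_of_eventually (T := T) hn w,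
    Tower.reset_of_eventually (T := T) hn, fun m hm => ?_⟩
  exact T.st_dead fun i => by rw [hdig, hd m hm]; exact sym_idle

/-- Towers with the same low placements have the same low tiles and digits. -/
lemma Tower.low_congr {T T' : Tower k em} {N : ℕ} (h : ∀ m, m < N → T.shift m = T'.shift m)
    (v : Fin 3 → ℤ) : ∀ m, m ≤ N → T.tile v m = T'.tile v m ∧
      (m < N → T.digit v m = T'.digit v m) := by
  have ht : ∀ m, m ≤ N → T.tile v m = T'.tile v m := by
    intro m
    induction m with
    | zero => exact fun _ => rfl
    | succ m ih =>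
      intro hm
      funext i
      show (T.tile v m i + (T.shift m i).val) / (base k : ℤ) = _
      rw [ih (by omega), h m (by omega)]
      rfl
  refine fun m hm => ⟨ht m hm, fun hlt => funext fun i => Fin.ext ?_⟩
  show ((T.tile v m i + (T.shift m i).val) % (base k : ℤ)).toNat = _
  rw [ht m hm, h m hlt]
  rfl

/-- The placements are read from the digits of one cell. -/
lemma Tower.shift_eq_of_digits {T T' : Tower k em} {v : Fin 3 → ℤ} {N : ℕ}
    (h : ∀ m, m < N → T.digit v m = T'.digit v m) : ∀ m, m < N → T.shift m = T'.shift m := by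
  intro m
  induction m using Nat.strong_induction_on with
  | _ m ih =>
    intro hm
    funext i
    have ht := congrFun (Tower.low_congr (fun j hj => ih j hj (hj.trans hm)) v m le_rfl).1 i
    have e1 := Axis.step_eq (fun j => T.shift j i) (v i) m
    have e2 := Axis.step_eq (fun j => T'.shift j i) (v i) m
    have hd := congrFun (h m hm) i
    rw [← T.tile_eq_up, ← T.tile_eq_up, ← T.digit_eq_dig] at e1
    rw [← T'.tile_eq_up, ← T'.tile_eq_up, ← T'.digit_eq_dig] at e2
    rw [hd, ht] at e1
    have hb : (0 : ℤ) < base k := Axis.b_pos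
    have s1 : ((T.shift m i).val : ℤ) < base k := by exact_mod_cast (T.shift m i).isLt
    have s2 : ((T'.shift m i).val : ℤ) < base k := by exact_mod_cast (T'.shift m i).isLt
    apply Fin.ext
    have : T.tile v (m + 1) i = T'.tile v (m + 1) i := by
      by_contra hne
      rcases lt_or_gt_of_ne hne with hlt | hlt <;> nlinarith
    rw [this] at e1
    omega

end Vale.Agent.P193.W4
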